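import Vale.Agent.P113.Iface

/-!
# P113: assembly of the parts
-/

open Set MeasureTheory
open scoped ContDiff

namespace Vale.Agent.P113

theorem foldl_digits (K : ℕ) (hK : (K : ℝ) ≠ 0) (l : List ℕ) (acc : ℕ) :
    ((l.foldl (fun acc a => acc * K + a) acc : ℕ) : ℝ) / (K : ℝ) ^ l.length =
      acc + wordVal K l := by
  induction l generalizing acc with
  | nil => simp [wordVal]
  | cons a l ih =>
    simp only [List.foldl_cons, List.length_cons, wordVal]
    have h := ih (acc * K + a)
    have hK' : (K : ℝ) ^ l.length ≠ 0 := pow_ne_zero _ hK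
    rw [div_eq_iff hK'] at h
    rw [pow_succ, h]
    push_cast
    field_simp
    ring

theorem qval_wordCode (K : ℕ) (hK : 2 ≤ K) (l : List ℕ) : qval (wordCode K l) = wordVal K l := by
  have hK0 : (K : ℝ) ≠ 0 := by positivity
  have h := foldl_digits K hK0 l 0
  simp only [Nat.cast_zero, zero_add] at h
  rw [← h]
  simp [qval, wordCode]

theorem qval_scaleCode (K n : ℕ) : qval (scaleCode K n) = ((K : ℝ) ^ n)⁻¹ := by
  simp [qval, scaleCode]

theorem wordCode_den (K : ℕ) (hK : 2 ≤ K) (l : List ℕ) : (wordCode K l).2 ≠ 0 := by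
  simp only [wordCode]
  positivity

theorem scaleCode_den (K : ℕ) (hK : 2 ≤ K) (n : ℕ) : (scaleCode K n).2 ≠ 0 := by
  simp only [scaleCode]
  positivity

theorem loadTerm_valid (m : ℕ) (q : QCode) (hq : q.2 ≠ 0) : TermCode.Valid (loadTerm m q) := by
  simp [loadTerm, TermCode.Valid, BumpCode.Valid, hq, qval]

theorem loadTerm_nonperiodic (m : ℕ) (q : QCode) : isPeriodic (loadTerm m q) = false := by
  simp [loadTerm, isPeriodic]

theorem rho_eventually_zero {s : ℝ} (hs : 1 < s) : iteratedDeriv 1 rho s = 0 := by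
  rw [iteratedDeriv_one]
  have h : rho =ᶠ[nhds s] fun _ => (0 : ℝ) := by
    filter_upwards [lt_mem_nhds hs] with r hr
    simp only [rho]
    rw [if_neg]
    rw [abs_of_pos (by linarith)]
    linarith
  rw [h.deriv_eq]
  simp

theorem loadTerm_vanish (m : ℕ) (hm : m ≤ 1) (q : QCode) (ν t : ℝ) (x : E) (ht : 1 / 2 ≤ t) :
    termVal ν (loadTerm m q) t x = 0 := by
  have h1 : (m : ℝ) ≤ 1 := by exact_mod_cast hm
  have h : iteratedDeriv 1 rho (qval (32, 1) * t - qval (2 * (m : ℤ) + 1, 1)) = 0 := by
    apply rho_eventually_zero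
    simp only [qval]
    push_cast
    linarith
  simp only [loadTerm, termVal, List.map_cons, List.map_nil, List.prod_cons, List.prod_nil, bump]
  simp [h]

theorem isForceCompiler_fullCode (P : Fin 3 → List TermCode)
    (hP : ∀ i, ∀ τ ∈ P i, TermCode.Valid τ ∧ isPeriodic τ = true)
    (X Y : Machine × List ℕ → QCode) (hX : ∀ z, (X z).2 ≠ 0) (hY : ∀ z, (Y z).2 ≠ 0)
    (hc : Computable fun z => fullCode P (X z) (Y z)) :
    IsForceCompiler fun z => fullCode P (X z) (Y z) where
  computable := hc
  valid := by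
    intro M w i τ hτ
    simp only [fullCode, List.mem_append] at hτ
    rcases hτ with hτ | hτ
    · split_ifs at hτ with h0 h1
      · rw [List.mem_singleton] at hτ
        subst hτ
        exact loadTerm_valid _ _ (hX _)
      · rw [List.mem_singleton] at hτ
        subst hτ
        exact loadTerm_valid _ _ (hY _)
      · simp at hτ
    · exact (hP i τ hτ).1
  vanish := by
    refine ⟨1 / 2, ?_⟩
    intro M w i τ hτ hper ν t x ht
    simp only [fullCode, List.mem_append] at hτ
    rcases hτ with hτ | hτ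
    · split_ifs at hτ with h0 h1
      · rw [List.mem_singleton] at hτ
        subst hτ
        exact loadTerm_vanish 0 (by norm_num) _ _ _ _ ht
      · rw [List.mem_singleton] at hτ
        subst hτ
        exact loadTerm_vanish 1 (by norm_num) _ _ _ _ ht
      · simp at hτ
    · rw [(hP i τ hτ).2] at hper
      exact absurd hper (by simp)
  periodic := by
    intro M w w' i
    simp only [fullCode, List.filter_append]
    congr 1
    split_ifs <;> simp [loadTerm_nonperiodic]

/-- The box `(-1/2,1/2) × (-1/2,1/2) × (7/16, 9/16)`. -/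
def boxLo : Fin 3 → ℚ := ![-1 / 2, -1 / 2, 7 / 16]

/-- The box `(-1/2,1/2) × (-1/2,1/2) × (7/16, 9/16)`. -/
def boxHi : Fin 3 → ℚ := ![1 / 2, 1 / 2, 9 / 16]

theorem meets_of_mem {X : ℝ → E} {t : ℝ} (ht : 0 ≤ t) (hx : |X t 0| ≤ 3 / 8)
    (hy : |X t 1| ≤ 3 / 8) (h1 : 7 / 16 < X t 2) (h2 : X t 2 < 9 / 16) :
    Meets boxLo boxHi X := by
  refine ⟨t, ht, 0, ?_⟩
  have a0 := abs_le.1 hx
  have a1 := abs_le.1 hy
  intro i
  fin_cases i
  · simp only [boxLo, boxHi, Fin.zero_eta, Matrix.cons_val_zero, Pi.zero_apply]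
    push_cast
    constructor <;> linarith
  · simp only [boxLo, boxHi, Fin.mk_one, Matrix.cons_val_one, Matrix.cons_val_zero, Pi.zero_apply]
    push_cast
    constructor <;> linarith
  · simp only [boxLo, boxHi, Fin.reduceFinMk, Matrix.cons_val, Pi.zero_apply]
    push_cast
    constructor <;> linarith

theorem not_meets {X : ℝ → E} (h : ∀ t, 0 ≤ t → |X t 2| ≤ 3 / 8) : ¬ Meets boxLo boxHi X := by
  rintro ⟨t, ht, k, hk⟩
  have h2 := hk 2
  simp only [boxLo, boxHi, Matrix.cons_val] at h2
  push_cast at h2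
  have hx := abs_le.1 (h t ht)
  rcases lt_trichotomy (k 2) 0 with hk0 | hk0 | hk0
  · have : (k 2 : ℝ) ≤ -1 := by exact_mod_cast Int.le_sub_one_of_lt hk0
    linarith [h2.1]
  · rw [hk0] at h2
    push_cast at h2
    linarith [h2.1]
  · have : (1 : ℝ) ≤ k 2 := by exact_mod_cast hk0
    linarith [h2.2]

theorem abs_le_of_segment {x y z : E} {c : ℝ} (hz : z ∈ segment ℝ x y) (hx : |x 2| ≤ c)
    (hy : |y 2| ≤ c) : |z 2| ≤ c := by
  obtain ⟨a, b, ha, hb, hab, rfl⟩ := hz
  simp only [Pi.add_apply, Pi.smul_apply, smul_eq_mul]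
  rw [abs_le] at *
  constructor
  · nlinarith
  · nlinarith

theorem assemble (hB : PartB) (hDS : PartDS) (hT : PartT) (hC : PartC) (hEF : PartEF)
    (hG1 : PartG1) (hG2 : PartG2) : MainStatement := by
  obtain ⟨m, k, d, H, s0, init, hinit, hlen, hP⟩ :=
    hEF (Machine × List ℕ) (fun z => z.1.Halts z.2) hG1
  obtain ⟨K, V, dir, hK, hV, hind, hC⟩ := hC m k d H
  obtain ⟨P, hPv, hNS⟩ := hDS V dir hV hind
  set X0 : Machine × List ℕ → QCode := fun z => wordCode K ((s0 : ℕ) :: (init z).map Fin.val)
    with hX0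
  set Y0 : Machine × List ℕ → QCode := fun z => scaleCode K ((init z).length + 1) with hY0
  refine ⟨fun _ => 0, boxLo, boxHi, fun z => fullCode P (X0 z) (Y0 z), ?_, ?_, ?_⟩
  · intro i
    fin_cases i <;> norm_num [boxLo, boxHi]
  · exact isForceCompiler_fullCode P hPv X0 Y0 (fun z => wordCode_den K hK _)
      (fun z => scaleCode_den K hK _) (hG2 k init K s0 P hinit)
  · intro ν hν M w
    have hsol := hNS (X0 (M, w)) (Y0 (M, w)) (wordCode_den K hK _) (scaleCode_den K hK _) ν hν
    refine ⟨vel V dir (qval (X0 (M, w))) (qval (Y0 (M, w))), fun _ _ => 0, hsol, ?_, ?_, ?_⟩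
    · intro T hT v q hv
      exact hB ν hν _ _ v _ q T hT hsol.solution hv
    · have h := (hT V dir hV hind (qval (X0 (M, w))) (qval (Y0 (M, w)))).1
      have h0 : (fun i : Fin 3 => (((fun _ => 0 : Fin 3 → ℚ) i : ℚ) : ℝ)) = (0 : E) := by
        ext i
        simp
      rw [h0]
      exact h
    · intro X hX
      have hX' : IsTrajectory (vel V dir (qval (X0 (M, w))) (qval (Y0 (M, w)))) 0 X := by
        refine ⟨?_, hX.ode⟩
        rw [hX.start]
        ext i
        simp
      obtain ⟨hpt, hseg⟩ :=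
        (hT V dir hV hind (qval (X0 (M, w))) (qval (Y0 (M, w)))).2 X hX'
      obtain ⟨hC1, hC2⟩ := hC s0 (init (M, w)) (hlen _)
        (orbit V dir (qval (X0 (M, w))) (qval (Y0 (M, w))))
        (by rw [← qval_wordCode K hK, ← qval_scaleCode])
      have hPMw := hP (M, w)
      constructor
      · intro hmeet
        by_contra hnot
        have hnot' : ∀ n, H ((qstep d)^[n] (s0, init (M, w))).1 = false := by
          intro n
          by_contra hne
          exact hnot (hPMw.2 ⟨n, by simpa using hne⟩)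
        have hz := hC2 hnot'
        refine not_meets ?_ hmeet
        intro t ht
        have hn0 : 0 ≤ 16 * t := by positivity
        have h1 := Nat.floor_le hn0
        have h2 := Nat.lt_floor_add_one (16 * t)
        exact abs_le_of_segment (hseg ⌊16 * t⌋₊ t (by linarith) (by linarith))
          (hz _) (hz _)
      · intro hhalt
        obtain ⟨n, hn0, hn1, hn2, hn3⟩ := hC1 (hPMw.1 hhalt)
        refine meets_of_mem (t := (n : ℝ) / 16) (by positivity) ?_ ?_ ?_ ?_
        · rw [hpt n]
          exact hn0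
        · rw [hpt n]
          exact hn1
        · rw [hpt n]
          exact hn2
        · rw [hpt n]
          exact hn3

end Vale.Agent.P113
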