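import Mathlib

/-!
# P113: halting detection by particle trajectories of forced Navier-Stokes flows from rest

Definitions used by the statement (as in the problem file).

Functions on the flat torus `𝕋³ = (ℝ/ℤ)³` are written as `ℤ³`-periodic functions on `ℝ³`;
points and trajectories in `𝕋³` are written through their lifts to `ℝ³`.
-/

open Set MeasureTheory
open scoped ContDiff

namespace Vale.Agent.P113

/-- `ℝ³`, the universal cover of the flat torus. -/
abbrev E := Fin 3 → ℝ

/-! ## Turing machines -/

/-- A deterministic one-tape Turing machine. States and symbols are natural numbers, the blank is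
`0`; the transition table is a finite list, so that only finitely many states and symbols occur.
An entry `((q, a), (q', b, d))` of the table says: in state `q` on symbol `a` write `b`, go to
state `q'` and move the head by `d - 1` (one cell to the left for `d = 0`, stay for `d = 1`, one
cell to the right for `d = 2`). The first entry for `(q, a)` is the valid one; if there is none,
the machine is stuck. -/
structure Machine where
  /-- the start state -/
  start : ℕ
  /-- the halting states -/
  halting : List ℕ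
  /-- the transition table -/
  table : List ((ℕ × ℕ) × (ℕ × ℕ × Fin 3))

/-- A configuration: state, position of the head, content of the two-sided tape. -/
structure Cfg where
  /-- the state -/
  state : ℕ
  /-- the position of the head -/
  head : ℤ
  /-- the tape content -/
  tape : ℤ → ℕ

/-- The transition for state `q` and symbol `a`: the first entry of the table for `(q, a)`. -/
def Machine.lookup (M : Machine) (q a : ℕ) : Option (ℕ × ℕ × Fin 3) :=
  (M.table.find? fun e => e.1.1 == q && e.1.2 == a).map fun e => e.2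

/-- One step of the machine. -/
def Machine.step (M : Machine) (c : Cfg) : Option Cfg :=
  (M.lookup c.state (c.tape c.head)).map fun r =>
    ⟨r.1, c.head + ((r.2.2 : ℕ) : ℤ) - 1, Function.update c.tape c.head r.2.1⟩

/-- The initial configuration: the word `w` on the cells `0, 1, …` of an otherwise blank tape, the
head at the first cell of `w`. -/
def Machine.init (M : Machine) (w : List ℕ) : Cfg :=
  ⟨M.start, 0, fun i => if 0 ≤ i then w.getD i.toNat 0 else 0⟩

/-- `M` halts on `w`: it reaches a halting state after finitely many steps (possibly none). -/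
def Machine.Halts (M : Machine) (w : List ℕ) : Prop :=
  ∃ c : Cfg, Relation.ReflTransGen (fun c₁ c₂ => M.step c₁ = some c₂) (M.init w) c ∧
    c.state ∈ M.halting

/-- A machine is given by its three finite data. -/
def Machine.equiv : Machine ≃ ℕ × List ℕ × List ((ℕ × ℕ) × (ℕ × ℕ × Fin 3)) where
  toFun M := (M.start, M.halting, M.table)
  invFun m := ⟨m.1, m.2.1, m.2.2⟩
  left_inv _ := rfl
  right_inv _ := rfl

instance : Primcodable Machine := Primcodable.ofEquiv _ Machine.equiv

/-! ## Admissible functions -/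

/-- `ρ(s) = exp (-1 / (1 - s²))` for `|s| < 1` and `0` otherwise. -/
noncomputable def rho (s : ℝ) : ℝ := if |s| < 1 then Real.exp (-1 / (1 - s ^ 2)) else 0

/-- `κ = ∫ ρ`. -/
noncomputable def kappa : ℝ := ∫ s, rho s

/-- `σ(s) = ∫_{-∞}^s ρ`. -/
noncomputable def sigma (s : ℝ) : ℝ := ∫ r in Iic s, rho r

/-- `π_ℓ(s) = σ(s) - σ(s - ℓ)`. -/
noncomputable def plateau (l s : ℝ) : ℝ := sigma s - sigma (s - l)

/-- `P[g](y) = ∑_{m ∈ ℤ} g(y + m)`. -/
noncomputable def periodize (g : ℝ → ℝ) (y : ℝ) : ℝ := ∑' m : ℤ, g (y + m)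

/-- A rational number given by numerator and denominator. -/
abbrev QCode := ℤ × ℕ

/-- The value of a code of a rational number. -/
noncomputable def qval (q : QCode) : ℝ := (q.1 : ℝ) / (q.2 : ℝ)

/-- Codes of bumps: `inl (k, j, a, b)` stands for `s ↦ s ^ k * ρ^{(j)} (a s - b)` and
`inr (k, ℓ, a, b)` for `s ↦ s ^ k * π_ℓ (a s - b)`. -/
abbrev BumpCode := (ℕ × ℕ × QCode × QCode) ⊕ (ℕ × QCode × QCode × QCode)

/-- The function given by a bump code. -/
noncomputable def bump : BumpCode → ℝ → ℝ
  | .inl (k, j, a, b), s => s ^ k * iteratedDeriv j rho (qval a * s - qval b)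
  | .inr (k, l, a, b), s => s ^ k * plateau (qval l) (qval a * s - qval b)

/-- The conditions on a bump code: `a ≠ 0`, `ℓ > 0`, and all denominators are nonzero. -/
def BumpCode.Valid : BumpCode → Prop
  | .inl (_, _, a, b) => a.2 ≠ 0 ∧ b.2 ≠ 0 ∧ qval a ≠ 0
  | .inr (_, l, a, b) => l.2 ≠ 0 ∧ a.2 ≠ 0 ∧ b.2 ≠ 0 ∧ qval a ≠ 0 ∧ 0 < qval l

/-- Codes of terms: `(q, m, n, rs, θ, h)` stands for
`q ν^m κ^n ∏_{r ∈ rs} ln r · θ(t) · h₁(x₁) h₂(x₂) h₃(x₃)`, where `θ` is the product of its listed
factors (`(true, g)` is the factor `P[g](t)` and `(false, g)` the factor `g(t)`) and `h_i` is the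
product of the periodizations `P[g]` of its listed bumps `g`. -/
abbrev TermCode :=
  QCode × ℕ × ℤ × List QCode × List (Bool × BumpCode) × (Fin 3 → List BumpCode)

/-- The function of `(t, x)` given by a term code, for the viscosity `ν`. -/
noncomputable def termVal (ν : ℝ) : TermCode → ℝ → E → ℝ
  | (q, m, n, rs, θ, h), t, x =>
    qval q * ν ^ m * kappa ^ n * (rs.map fun r => Real.log (qval r)).prod *
      (θ.map fun g => if g.1 then periodize (bump g.2) t else bump g.2 t).prod *
      ∏ i, ((h i).map fun g => periodize (bump g) (x i)).prod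

/-- The conditions on a term code. -/
def TermCode.Valid : TermCode → Prop
  | (q, _, _, rs, θ, h) =>
    q.2 ≠ 0 ∧ (∀ r ∈ rs, r.2 ≠ 0 ∧ 0 < qval r) ∧ (∀ g ∈ θ, BumpCode.Valid g.2) ∧
      ∀ i, ∀ g ∈ h i, BumpCode.Valid g

/-- A term is periodic if `θ` is `1` or a product of periodizations only. -/
def isPeriodic : TermCode → Bool
  | (_, _, _, _, θ, _) => θ.all fun g => g.1

/-- The vector field given by one finite list of terms for each component. -/
noncomputable def forceVal (ν : ℝ) (F : Fin 3 → List TermCode) (t : ℝ) (x : E) : E :=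
  fun i => ((F i).map fun τ => termVal ν τ t x).sum

/-- A force compiler: an algorithm that, on every pair `(M, w)`, outputs for each component a
finite list of (valid) terms; there is a time `T₀` independent of `(M, w)` from which on all listed
terms that are not periodic vanish; and the list of the periodic terms depends on `M` only. -/
structure IsForceCompiler (F : Machine × List ℕ → Fin 3 → List TermCode) : Prop where
  computable : Computable F
  valid : ∀ M w i, ∀ τ ∈ F (M, w) i, TermCode.Valid τ
  vanish : ∃ T₀ : ℝ, ∀ M w i, ∀ τ ∈ F (M, w) i, isPeriodic τ = false →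
    ∀ ν t x, T₀ ≤ t → termVal ν τ t x = 0
  periodic : ∀ M w w' i, (F (M, w) i).filter isPeriodic = (F (M, w') i).filter isPeriodic

/-! ## The Navier-Stokes system -/

/-- The partial derivative `∂_k g`. -/
noncomputable def pd (k : Fin 3) (g : E → ℝ) (x : E) : ℝ :=
  deriv (fun s => g (Function.update x k s)) (x k)

/-- `∂_k g` exists everywhere. -/
def HasPd (k : Fin 3) (g : E → ℝ) : Prop :=
  ∀ x : E, DifferentiableAt ℝ (fun s => g (Function.update x k s)) (x k)

/-- `(u, p)` is a classical solution, on the time interval `I` (which is `[0, T]` or `[0, ∞)`), of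
`∂ₜu + (u·∇)u = -∇p + νΔu + f`, `div u = 0`, `u(0,·) = 0` on the flat torus: `u`, `∂ₜu`, the
spatial derivatives of `u` up to order two, `p` and `∇p` exist and are continuous on `I × 𝕋³`, `p`
has spatial mean zero, and the equations hold pointwise. -/
structure IsClassicalSolution (ν : ℝ) (f : ℝ → E → E) (I : Set ℝ) (u : ℝ → E → E)
    (p : ℝ → E → ℝ) : Prop where
  u_periodic : ∀ t ∈ I, ∀ x (k : Fin 3 → ℤ), u t (x + fun i => (k i : ℝ)) = u t x
  p_periodic : ∀ t ∈ I, ∀ x (k : Fin 3 → ℤ), p t (x + fun i => (k i : ℝ)) = p t x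
  u_cont : ContinuousOn (fun z : ℝ × E => u z.1 z.2) (I ×ˢ univ)
  ut_diff : ∀ t ∈ I, ∀ x i, DifferentiableWithinAt ℝ (fun s => u s x i) I t
  ut_cont : ∀ i,
    ContinuousOn (fun z : ℝ × E => derivWithin (fun s => u s z.2 i) I z.1) (I ×ˢ univ)
  ux_diff : ∀ t ∈ I, ∀ i j, HasPd j (fun x => u t x i)
  ux_cont : ∀ i j,
    ContinuousOn (fun z : ℝ × E => pd j (fun x => u z.1 x i) z.2) (I ×ˢ univ)
  uxx_diff : ∀ t ∈ I, ∀ i j k, HasPd k (pd j (fun x => u t x i))
  uxx_cont : ∀ i j k,
    ContinuousOn (fun z : ℝ × E => pd k (pd j (fun x => u z.1 x i)) z.2) (I ×ˢ univ)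
  p_cont : ContinuousOn (fun z : ℝ × E => p z.1 z.2) (I ×ˢ univ)
  px_diff : ∀ t ∈ I, ∀ j, HasPd j (p t)
  px_cont : ∀ j, ContinuousOn (fun z : ℝ × E => pd j (p z.1) z.2) (I ×ˢ univ)
  mean_zero : ∀ t ∈ I, ∫ x in Icc (0 : E) 1, p t x = 0
  momentum : ∀ t ∈ I, ∀ x i,
    derivWithin (fun s => u s x i) I t + ∑ j, u t x j * pd j (fun y => u t y i) x =
      -pd i (p t) x + ν * ∑ j, pd j (pd j (fun y => u t y i)) x + f t x i
  div_free : ∀ t ∈ I, ∀ x, ∑ j, pd j (fun y => u t y j) x = 0
  initial : ∀ x, u 0 x = 0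

/-- `(u, p)` is a global smooth solution: `u` and `p` are smooth on `[0, ∞) × 𝕋³` and solve the
system there. -/
structure IsGlobalSmoothSolution (ν : ℝ) (f : ℝ → E → E) (u : ℝ → E → E)
    (p : ℝ → E → ℝ) : Prop where
  u_smooth : ContDiffOn ℝ ∞ (fun z : ℝ × E => u z.1 z.2) (Ici 0 ×ˢ univ)
  p_smooth : ContDiffOn ℝ ∞ (fun z : ℝ × E => p z.1 z.2) (Ici 0 ×ˢ univ)
  solution : IsClassicalSolution ν f (Ici 0) u p

/-- `X` is (a lift to `ℝ³` of) the trajectory of `a`: `X' (t) = u (t, X t)`, `X 0 = a`. -/
structure IsTrajectory (u : ℝ → E → E) (a : E) (X : ℝ → E) : Prop where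
  start : X 0 = a
  ode : ∀ t, 0 ≤ t → HasDerivWithinAt X (u t (X t)) (Ici 0) t

/-- The trajectory `X` lies at some real time `t ≥ 0` in the open set `O ⊆ 𝕋³` that is the image of
the open box with corners `lo`, `hi`. -/
def Meets (lo hi : Fin 3 → ℚ) (X : ℝ → E) : Prop :=
  ∃ t : ℝ, 0 ≤ t ∧ ∃ k : Fin 3 → ℤ, ∀ i, (lo i : ℝ) < X t i + k i ∧ X t i + k i < hi i

/-- The statement: there are a rational point `a`, an open box with rational corners `lo`, `hi` and
a force compiler `F` such that, for every `ν > 0`, every machine `M` and every input `w`, the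
system with force `F (M, w)` has a global smooth solution `(u, p)`, which is unique among classical
solutions on each `[0, T]`, and whose trajectory from `a` lies in the image of the box at some real
time `t ≥ 0` if and only if `M` halts on `w`. -/
def MainStatement : Prop :=
  ∃ (a lo hi : Fin 3 → ℚ) (F : Machine × List ℕ → Fin 3 → List TermCode),
    (∀ i, lo i < hi i) ∧ IsForceCompiler F ∧
    ∀ ν : ℝ, 0 < ν → ∀ (M : Machine) (w : List ℕ), ∃ (u : ℝ → E → E) (p : ℝ → E → ℝ),
      IsGlobalSmoothSolution ν (forceVal ν (F (M, w))) u p ∧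
      (∀ T : ℝ, 0 < T → ∀ (v : ℝ → E → E) (q : ℝ → E → ℝ),
        IsClassicalSolution ν (forceVal ν (F (M, w))) (Icc 0 T) v q →
          ∀ t ∈ Icc 0 T, v t = u t ∧ q t = p t) ∧
      (∃ X : ℝ → E, IsTrajectory u (fun i => (a i : ℝ)) X) ∧
      ∀ X : ℝ → E, IsTrajectory u (fun i => (a i : ℝ)) X →
        (Meets lo hi X ↔ M.Halts w)

end Vale.Agent.P113
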