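import Vale.Agent.P113.Defs

/-!
# P113: common interface definitions (not used in the final statement)

Everything here is internal: admissible functions of `x`, time slots, the discrete orbit, the
uniform queue machine, and the statements of the parts as `Prop`s.
-/

open Set MeasureTheory
open scoped ContDiff

namespace Vale.Agent.P113

/-! ## Admissible functions of the space variable -/

/-- Codes of space terms: `(q, n, h)` stands for `q κ^n h₁(x₁) h₂(x₂) h₃(x₃)`. -/
abbrev SCode := QCode × ℤ × (Fin 3 → List BumpCode)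

/-- The value of a space term. -/
noncomputable def sVal : SCode → E → ℝ
  | (q, n, h), x =>
    qval q * kappa ^ n * ∏ i, ((h i).map fun g => periodize (bump g) (x i)).prod

/-- Validity of a space term. -/
def SCode.Valid : SCode → Prop
  | (q, _, h) => q.2 ≠ 0 ∧ ∀ i, ∀ g ∈ h i, BumpCode.Valid g

/-- `V : ℝ³ → ℝ` is an admissible function of `x` (with coefficients `q κ^n`). -/
def Adm (V : E → ℝ) : Prop :=
  ∃ L : List SCode, (∀ τ ∈ L, SCode.Valid τ) ∧ ∀ x, V x = (L.map fun τ => sVal τ x).sum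

/-! ## Time slots of length `1/16` -/

/-- `θ_m(t) = 32 κ⁻¹ ρ(32 t - (2m+1))`, supported in `(m/16, (m+1)/16)`, integral `1`. -/
noncomputable def slot (m : ℕ) (t : ℝ) : ℝ := 32 * kappa⁻¹ * rho (32 * t - (2 * m + 1))

/-- `φ_m(t) = κ⁻¹ σ(32 t - (2m+1))`, the primitive of `θ_m`. -/
noncomputable def slotInt (m : ℕ) (t : ℝ) : ℝ := kappa⁻¹ * sigma (32 * t - (2 * m + 1))

/-- The `1`-periodic slot function `Θ_m = P[θ_m]` (`8 ≤ m < 16`). -/
noncomputable def pslot (m : ℕ) (t : ℝ) : ℝ := periodize (slot m) t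

/-- The profile of the shear executed in time slot `n` (`[n/16, (n+1)/16]`): slots `0`, `1` are the
loading translations, the slots `n` with `n % 16 = 8 + j` execute the `j`-th shear. -/
noncomputable def progV (V : Fin 8 → E → ℝ) (x0 y0 : ℝ) (n : ℕ) : E → ℝ :=
  if n = 0 then fun _ => x0
  else if n = 1 then fun _ => y0
  else if h : 8 ≤ n % 16 then V ⟨n % 16 - 8, by omega⟩
  else fun _ => 0

/-- The direction of the shear executed in time slot `n`. -/
def progDir (dir : Fin 8 → Fin 3) (n : ℕ) : Fin 3 :=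
  if n = 0 then 0
  else if n = 1 then 1
  else if h : 8 ≤ n % 16 then dir ⟨n % 16 - 8, by omega⟩
  else 0

/-- The discrete orbit of the origin: position at time `n / 16`. -/
noncomputable def orbit (V : Fin 8 → E → ℝ) (dir : Fin 8 → Fin 3) (x0 y0 : ℝ) : ℕ → E
  | 0 => 0
  | n + 1 => orbit V dir x0 y0 n +
      Pi.single (progDir dir n) (progV V x0 y0 n (orbit V dir x0 y0 n))

/-- The velocity field. -/
noncomputable def vel (V : Fin 8 → E → ℝ) (dir : Fin 8 → Fin 3) (x0 y0 : ℝ) (t : ℝ) (x : E) : E :=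
  Pi.single 0 (slot 0 t * x0) + Pi.single 1 (slot 1 t * y0) +
    ∑ j : Fin 8, Pi.single (dir j) (pslot (8 + j) t * V j x)

/-! ## The force code -/

/-- The code of the loading term `x0 θ_m'(t) = 1024 x0 κ⁻¹ ρ'(32 t - (2m+1))`. -/
def loadTerm (m : ℕ) (q : QCode) : TermCode :=
  ((1024 * q.1, q.2), 0, -1, [], [(false, .inl (0, 1, (32, 1), (2 * m + 1, 1)))], fun _ => [])

/-- The force code: loading terms followed by the fixed periodic terms. -/
def fullCode (P : Fin 3 → List TermCode) (x0 y0 : QCode) : Fin 3 → List TermCode :=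
  fun i => (if i = 0 then [loadTerm 0 x0] else if i = 1 then [loadTerm 1 y0] else []) ++ P i

/-! ## Uniform queue machines -/

/-- One step of the uniform queue machine: pops 2, appends 3. -/
def qstep {m k : ℕ} (d : Fin m → Fin k → Fin k → Fin m × Fin k × Fin k × Fin k) :
    Fin m × List (Fin k) → Fin m × List (Fin k)
  | (s, a :: b :: q) =>
    ((d s a b).1, q ++ [(d s a b).2.1, (d s a b).2.2.1, (d s a b).2.2.2])
  | c => c

/-- The value `∑ l_i K^{-(i+1)}` of a word of digits. -/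
noncomputable def wordVal (K : ℕ) : List ℕ → ℝ
  | [] => 0
  | a :: l => ((a : ℝ) + wordVal K l) / K

/-- Code of `wordVal K l`: numerator `∑ l_i K^(n-1-i)`, denominator `K^n`. -/
def wordCode (K : ℕ) (l : List ℕ) : QCode :=
  ((l.foldl (fun acc a => acc * K + a) 0 : ℕ), K ^ l.length)

/-- Code of `K^{-n}`. -/
def scaleCode (K n : ℕ) : QCode := (1, K ^ n)

/-! ## The parts -/

/-- Part B: uniqueness of classical solutions. -/
def PartB : Prop :=
  ∀ (ν : ℝ), 0 < ν → ∀ (f : ℝ → E → E) (u v : ℝ → E → E) (p q : ℝ → E → ℝ) (T : ℝ), 0 < T →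
    IsClassicalSolution ν f (Ici 0) u p → IsClassicalSolution ν f (Icc 0 T) v q →
      ∀ t ∈ Icc 0 T, v t = u t ∧ q t = p t

/-- Part D: the velocity field solves the system with force `∂ₜ vel - ν Δ vel`, and trajectories
follow the discrete orbit. The force is given by its code (Part S). -/
def PartDS : Prop :=
  ∀ (V : Fin 8 → E → ℝ) (dir : Fin 8 → Fin 3), (∀ j, Adm (V j)) →
    (∀ j x s, V j (Function.update x (dir j) s) = V j x) →
    ∃ P : Fin 3 → List TermCode,
      (∀ i, ∀ τ ∈ P i, TermCode.Valid τ ∧ isPeriodic τ = true) ∧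
      ∀ (x0 y0 : QCode), x0.2 ≠ 0 → y0.2 ≠ 0 → ∀ ν : ℝ, 0 < ν →
        IsGlobalSmoothSolution ν (forceVal ν (fullCode P x0 y0))
          (vel V dir (qval x0) (qval y0)) (fun _ _ => 0)

/-- Part T: trajectories. -/
def PartT : Prop :=
  ∀ (V : Fin 8 → E → ℝ) (dir : Fin 8 → Fin 3), (∀ j, Adm (V j)) →
    (∀ j x s, V j (Function.update x (dir j) s) = V j x) →
    ∀ (x0 y0 : ℝ),
      (∃ X : ℝ → E, IsTrajectory (vel V dir x0 y0) 0 X) ∧
      ∀ X : ℝ → E, IsTrajectory (vel V dir x0 y0) 0 X →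
        (∀ n : ℕ, X (n / 16) = orbit V dir x0 y0 n) ∧
        ∀ (n : ℕ) (t : ℝ), (n : ℝ) / 16 ≤ t → t ≤ (n + 1) / 16 →
          X t ∈ segment ℝ (orbit V dir x0 y0 n) (orbit V dir x0 y0 (n + 1))

/-- Part C: tracking of the uniform queue machine. -/
def PartC : Prop :=
  ∀ (m k : ℕ) (d : Fin m → Fin k → Fin k → Fin m × Fin k × Fin k × Fin k) (H : Fin m → Bool),
    ∃ (K : ℕ) (V : Fin 8 → E → ℝ) (dir : Fin 8 → Fin 3), 2 ≤ K ∧ (∀ j, Adm (V j)) ∧
      (∀ j x s, V j (Function.update x (dir j) s) = V j x) ∧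
      ∀ (s0 : Fin m) (q : List (Fin k)), 2 ≤ q.length →
        ∀ Y : ℕ → E, Y = orbit V dir (wordVal K ((s0 : ℕ) :: q.map Fin.val))
            ((K : ℝ) ^ (q.length + 1))⁻¹ →
          ((∃ n, H ((qstep d)^[n] (s0, q)).1 = true) →
            ∃ n, |Y n 0| ≤ 3 / 8 ∧ |Y n 1| ≤ 3 / 8 ∧ 7 / 16 < Y n 2 ∧ Y n 2 < 9 / 16) ∧
          ((∀ n, H ((qstep d)^[n] (s0, q)).1 = false) → ∀ n, |Y n 2| ≤ 3 / 8)

/-- Part EF: universality of uniform queue machines. -/
def PartEF : Prop :=
  ∀ (α : Type) [Primcodable α] (P : α → Prop), REPred P →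
    ∃ (m k : ℕ) (d : Fin m → Fin k → Fin k → Fin m × Fin k × Fin k × Fin k) (H : Fin m → Bool)
      (s0 : Fin m) (init : α → List (Fin k)),
      Computable init ∧ (∀ a, 2 ≤ (init a).length) ∧
        ∀ a, P a ↔ ∃ n, H ((qstep d)^[n] (s0, init a)).1 = true

/-- Part G1: halting of machines is recursively enumerable. -/
def PartG1 : Prop := REPred fun z : Machine × List ℕ => z.1.Halts z.2

/-- Part G2: computability of the compiler. -/
def PartG2 : Prop :=
  ∀ (k : ℕ) (init : Machine × List ℕ → List (Fin k)) (K s0 : ℕ) (P : Fin 3 → List TermCode),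
    Computable init →
      Computable fun z : Machine × List ℕ =>
        fullCode P (wordCode K (s0 :: (init z).map Fin.val)) (scaleCode K ((init z).length + 1))

end Vale.Agent.P113
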