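import Vale.Agent.P113.H586.Full
import Vale.Agent.P113.H586.Compiler
import Vale.Agent.P113.H818.PartB
import Vale.Agent.P113.H818.ForceSmooth
import Vale.Agent.P113.H799.PartDS
import Vale.Agent.P113.H165.Time
import Vale.Agent.P113.H554.Univ

/-!
P113: everything except Part C.
-/

open Set
open scoped ContDiff

namespace Vale.Agent.P113

theorem full_of_partC (hC : PartC) : FullStatement :=
  assemble_full H818.partB S.partDS H165.partT hC H554.partEF H586.partG1 H586.partG2
    (fun _ hF ν => H818.contDiff_forceVal ν hF)

end Vale.Agent.P113
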